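import Vale.Agent.P231.MathlibUsed

/-! P231: the definitions used in the statement of the main theorem. -/

set_option maxSynthPendingDepth 3

open Bundle Manifold Set MeasureTheory
open scoped ContDiff Manifold ENNReal

namespace Vale.Agent.P231.Blaschke

noncomputable section

/-- The Riemannian volume of an `n`-dimensional Riemannian manifold: the `n`-dimensional Hausdorff
measure of the Riemannian distance, normalised so that the unit ball of the Euclidean space of
dimension `n` has its Lebesgue measure `π^(n/2) / Γ(n/2 + 1)`. -/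
def riemannianVolume (n : ℕ) (M : Type*) [MetricSpace M] [MeasurableSpace M] [BorelSpace M] :
    Measure M :=
  (ENNReal.ofReal (√Real.pi ^ n / Real.Gamma (n / 2 + 1)) /
    Measure.hausdorffMeasure (n : ℝ) (Metric.ball (0 : EuclideanSpace ℝ (Fin n)) 1)) •
    Measure.hausdorffMeasure (n : ℝ)

/-- The volume of the compact rank one symmetric space of dimension `N + 1` and diameter `D` in
which the cut points have multiplicity `l`: the volume `2 π^((N+1)/2) / Γ((N+1)/2)` of the unit
sphere of dimension `N` times `∫_0^D ((2D/π) sin(πr/2D))^N cos(πr/2D)^l dr`. -/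
def modelVolume (N l : ℕ) (D : ℝ) : ℝ :=
  2 * √Real.pi ^ (N + 1) / Real.Gamma ((N + 1) / 2) *
    ∫ r in (0 : ℝ)..D, (2 * D / Real.pi * Real.sin (Real.pi * r / (2 * D))) ^ N *
      Real.cos (Real.pi * r / (2 * D)) ^ l

variable {E : Type*} [NormedAddCommGroup E] [NormedSpace ℝ E]
  {M : Type*} [MetricSpace M] [ChartedSpace E M]
  [RiemannianBundle (fun x : M => TangentSpace 𝓘(ℝ, E) x)]

/-- `e` is the exponential map of the compact Riemannian manifold `M`: it is smooth on the tangent
bundle, `e x 0 = x`, and every curve `t ↦ e x (t v)` starts with velocity `v` and is minimising,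
with speed `‖v‖`, on all intervals of length at most `ρ / ‖v‖`, for a uniform `ρ > 0`. -/
structure IsExpMap [IsManifold 𝓘(ℝ, E) ∞ M] (e : ∀ x : M, TangentSpace 𝓘(ℝ, E) x → M) :
    Prop where
  smooth : ContMDiff (𝓘(ℝ, E).tangent) 𝓘(ℝ, E) ∞
    (fun p : TangentBundle 𝓘(ℝ, E) M => e p.proj p.snd)
  map_zero : ∀ x : M, e x 0 = x
  velocity : ∀ (x : M) (v : TangentSpace 𝓘(ℝ, E) x),
    mfderiv 𝓘(ℝ, ℝ) 𝓘(ℝ, E) (fun t : ℝ => e x (t • v)) 0 (1 : ℝ) = v
  minimizing : ∃ ρ : ℝ, 0 < ρ ∧ ∀ (x : M) (v : TangentSpace 𝓘(ℝ, E) x) (s t : ℝ),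
    ‖v‖ * |t - s| ≤ ρ → dist (e x (s • v)) (e x (t • v)) = ‖v‖ * |t - s|

/-- `inj M ≥ diam M`: for every `x` the exponential map at `x` is injective on the open ball of
radius `diam M`. -/
def InjGeDiam (e : ∀ x : M, TangentSpace 𝓘(ℝ, E) x → M) : Prop :=
  ∀ x : M, InjOn (e x) (Metric.ball (0 : TangentSpace 𝓘(ℝ, E) x) (Metric.diam (univ : Set M)))

/-- At every tangent vector `v` of length `diam M` the kernel of the differential
`w ↦ d/ds exp_x(v + s w)` at `s = 0` of the exponential map has dimension at most `l` (the cut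
points have multiplicity at most `l`): of any `l + 1` linearly independent vectors at least one is
not in the kernel. -/
def MultLE (e : ∀ x : M, TangentSpace 𝓘(ℝ, E) x → M) (l : ℕ) : Prop :=
  ∀ (x : M) (v : TangentSpace 𝓘(ℝ, E) x), ‖v‖ = Metric.diam (univ : Set M) →
    ∀ w : Fin (l + 1) → TangentSpace 𝓘(ℝ, E) x, LinearIndependent ℝ w →
      ∃ i, mfderiv 𝓘(ℝ, ℝ) 𝓘(ℝ, E) (fun s : ℝ => e x (v + s • w i)) 0 (1 : ℝ) ≠ 0

/-- All geodesic symmetries `exp_p(v) ↦ exp_p(-v)` are isometries: `M` is a symmetric space. -/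
def GeodesicSymmetric (e : ∀ x : M, TangentSpace 𝓘(ℝ, E) x → M) : Prop :=
  ∀ p : M, ∃ σ : M ≃ᵢ M, ∀ v : TangentSpace 𝓘(ℝ, E) p, σ (e p v) = e p (-v)

/-- Any two pairs of points at the same distance are exchanged by an isometry. -/
def TwoPointHomogeneous (X : Type*) [MetricSpace X] : Prop :=
  ∀ x y x' y' : X, dist x y = dist x' y' → ∃ σ : X ≃ᵢ X, σ x = x' ∧ σ y = y'

end

end Vale.Agent.P231.Blaschke
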